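import Vale.Agent.P067.Final

/-!
Bounded-degree coboundary expanders over `ZMod 2` exist in every dimension.
-/

namespace Vale.Agent.Results.P067.CoboundaryExpanders

/-- For every dimension `d ≥ 1` (in particular every `d ≥ 3`) there are arbitrarily large connected
pure `d`-dimensional simplicial complexes of bounded degree that are uniform coboundary expanders
in all degrees below `d`. -/
theorem result : ∀ d : ℕ, 1 ≤ d → Vale.Agent.P067.BoundedDegreeCoboundaryExpanders d :=
  Vale.Agent.P067.bdce_all

end Vale.Agent.Results.P067.CoboundaryExpanders
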